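import Vale.Agent.P225.Riccati.Basic
import Vale.Agent.P225.Riccati.Identities
import Vale.Agent.P225.Riccati.Linear

/-!
P225, module E: order tools for matrix valued functions, and propagators on an interval.
-/

noncomputable section

namespace Vale.Agent.P225

open Set Matrix
open scoped ComplexOrder Matrix.Norms.L2Operator

variable {n : Type*} [Fintype n] [DecidableEq n]

/-- A matrix function with nonnegative derivative stays nonnegative. -/
theorem posSemidef_of_deriv {f f' : ℝ → Op n} {a b : ℝ}
    (hf : ∀ t ∈ Icc a b, HasDerivAt f (f' t) t) (hf' : ∀ t ∈ Icc a b, (f' t).PosSemidef)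
    (h0 : (f a).PosSemidef) : ∀ t ∈ Icc a b, (f t).PosSemidef := by
  intro t ht
  have hab : a ≤ b := ht.1.trans ht.2
  have hherm : ∀ s ∈ Icc a b, (f s).IsHermitian := by
    have key := eq_zero_of_deriv_le (f := fun s => star (f s) - f s)
      (f' := fun _ => 0) (K := fun _ => 0) (a := a) (b := b) (fun s hs => ?_) continuousOn_const
      (fun _ _ => by simp) (sub_eq_zero.2 h0.1.eq)
    · exact fun s hs => sub_eq_zero.1 (key s hs)
    · refine (((hf s hs).star).sub (hf s hs)).congr_deriv ?_
      rw [star_eq_conjTranspose, (hf' s hs).1.eq, sub_self]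
  refine Matrix.PosSemidef.of_dotProduct_mulVec_nonneg (hherm t ht) fun x => ?_
  let q : Op n →L[ℝ] ℂ := LinearMap.toContinuousLinearMap
    { toFun := fun M => star x ⬝ᵥ (M *ᵥ x)
      map_add' := fun M N => by simp [add_mulVec, dotProduct_add]
      map_smul' := fun c M => by simp [smul_mulVec, dotProduct_smul] }
  have hq : ∀ M : Op n, q M = star x ⬝ᵥ (M *ᵥ x) := fun M => rfl
  have hd : ∀ s ∈ Icc a b, HasDerivAt (fun s => q (f s)) (q (f' s)) s := fun s hs =>
    q.hasFDerivAt.comp_hasDerivAt s (hf s hs)
  have hpos : ∀ s ∈ Icc a b, 0 ≤ q (f' s) := fun s hs => by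
    rw [hq]; exact (hf' s hs).dotProduct_mulVec_nonneg x
  have him := eq_zero_of_deriv_le (f := fun s => (q (f s)).im) (f' := fun _ => 0) (K := fun _ => 0)
    (a := a) (b := b) (fun s hs => ?_) continuousOn_const (fun _ _ => by simp) (by
      have := h0.dotProduct_mulVec_nonneg x
      rw [← hq, Complex.le_def] at this
      exact this.2.symm) t ht
  · have hre : (q (f a)).re ≤ (q (f t)).re := by
      refine monotoneOn_of_hasDerivWithinAt_nonneg (f := fun s => (q (f s)).re)
        (f' := fun s => (q (f' s)).re) (convex_Icc a b) ?_ ?_ ?_ (left_mem_Icc.2 hab) ht ht.1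
      · exact Complex.continuous_re.comp_continuousOn fun s hs =>
          (hd s hs).continuousAt.continuousWithinAt
      · intro s hs
        exact (Complex.reCLM.hasFDerivAt.comp_hasDerivAt s
          (hd s (interior_subset hs))).hasDerivWithinAt
      · intro s hs
        exact (Complex.le_def.1 (hpos s (interior_subset hs))).1
    have := h0.dotProduct_mulVec_nonneg x
    rw [← hq, Complex.le_def] at this
    rw [← hq, Complex.le_def]
    exact ⟨this.1.trans hre, him.symm⟩
  · refine (Complex.imCLM.hasFDerivAt.comp_hasDerivAt s (hd s hs)).congr_deriv ?_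
    exact (Complex.le_def.1 (hpos s hs)).2.symm

theorem posSemidef_real_smul {M : Op n} (hM : M.PosSemidef) {c : ℝ} (hc : 0 ≤ c) :
    (c • M).PosSemidef := by
  rw [← Complex.coe_smul]
  exact hM.smul (Complex.zero_le_real.2 hc)

theorem star_mul_self_posSemidef (M : Op n) : (star M * M).PosSemidef := by
  rw [star_eq_conjTranspose]; exact Matrix.posSemidef_conjTranspose_mul_self M

theorem star_conj_posSemidef {A : Op n} (hA : A.PosSemidef) (M : Op n) :
    (star M * A * M).PosSemidef := by
  rw [star_eq_conjTranspose]; exact hA.conjTranspose_mul_mul_same M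

/-- A contraction in the order is one in the norm. -/
theorem norm_sq_le_of_posSemidef {M : Op n} {c : ℝ} (hc : 0 ≤ c)
    (h : (c • (1 : Op n) - star M * M).PosSemidef) : ‖M‖ ^ 2 ≤ c := by
  open scoped MatrixOrder in
  have h1 : ‖star M * M‖ ≤ c := by
    refine (CStarAlgebra.norm_le_iff_le_algebraMap (star M * M) hc (star_mul_self_nonneg M)).2 ?_
    rw [Algebra.algebraMap_eq_smul_one, Matrix.le_iff]
    exact h
  rw [CStarRing.norm_star_mul_self] at h1
  rwa [sq]

theorem exists_ext {E : Type*} [TopologicalSpace E] [Zero E] {W : ℝ → E} {a b : ℝ}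
    (hW : ContinuousOn W (Icc a b)) : ∃ W' : ℝ → E, Continuous W' ∧ EqOn W' W (Icc a b) := by
  rcases le_or_gt a b with hab | hab
  · exact ⟨IccExtend hab ((Icc a b).restrict W), hW.restrict.Icc_extend',
      fun t ht => IccExtend_of_mem hab _ ht⟩
  · exact ⟨fun _ => 0, continuous_const, fun t ht => absurd (ht.1.trans ht.2) (not_le.2 hab)⟩

/-- The forward propagator on an interval. -/
theorem exists_fwd {W : ℝ → Op n} {a b : ℝ} (hW : ContinuousOn W (Icc a b)) :
    ∃ S : ℝ → Op n, S a = 1 ∧ ∀ t ∈ Icc a b, HasDerivAt S (W t * S t) t := by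
  obtain ⟨W', hW'c, hW'⟩ := exists_ext hW
  obtain ⟨S, h0, hS⟩ := exists_linear_ode (fun t => ContinuousLinearMap.mul ℝ (Op n) (W' t))
    ((ContinuousLinearMap.mul ℝ (Op n)).continuous.comp hW'c) a 1
  exact ⟨S, h0, fun t ht => by simpa [hW' ht] using hS t⟩

/-- A backward and a forward propagator are inverse to each other. -/
theorem back_mul_fwd {W R S : ℝ → Op n} {a b : ℝ} (hR : IsBack W R a b) (hS0 : S a = 1)
    (hS : ∀ t ∈ Icc a b, HasDerivAt S (W t * S t) t) : ∀ t ∈ Icc a b, R t * S t = 1 := by
  intro t ht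
  refine sub_eq_zero.1 (eq_zero_of_deriv_le (f := fun s => R s * S s - 1) (f' := fun _ => 0)
    (K := fun _ => 0) (fun s hs => ?_) continuousOn_const (fun _ _ => by simp)
    (by simp [hR.1, hS0]) t ht)
  refine (((hR.2 s hs).mul (hS s hs)).sub_const (1 : Op n)).congr_deriv ?_
  noncomm_ring

end Vale.Agent.P225
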